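import Vale.Agent.P231Z.Tube.Abs
import Vale.Agent.P231.Co.Low

/-! P231, angular forms (1): comparison and gluing. -/

set_option linter.unusedSectionVars false
set_option linter.unusedVariables false

open MeasureTheory Set Module Filter Topology
open scoped ContDiff

namespace Vale.Agent.P231Z.Ang

open Vale.Agent.P231 Vale.Agent.P231.Fm Vale.Agent.P231.Co
open Vale.Agent.P231.Fm (Sm Dif Form Lam)

section Split

variable {X : Type*} {D : Dif X} {O₁ O₂ : Set X}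

/-- the two sets cover -/
theorem cover_of {p : Form D} (h1 : p.Supp O₁) (h2 : (1 - p).Supp O₂)
    {E : Type} [NormedAddCommGroup E] [NormedSpace ℝ E] [FiniteDimensional ℝ E]
    {u : E → X} {x : E} (hu : D.At u x) : (D.on O₁).At u x ∨ (D.on O₂).At u x := by
  rcases h1.out hu with k1 | k1
  · exact Or.inl ⟨hu, k1⟩
  rcases h2.out hu with k2 | k2
  · exact Or.inr ⟨hu, k2⟩
  exfalso
  have k3 := k2.self_of_nhds
  rw [Form.sub_val, k1.self_of_nhds, sub_zero, Form.one_val hu] at k3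
  have k4 := congrArg (aug (E := E)) k3
  rw [map_one, map_zero] at k4
  exact one_ne_zero k4

/-- a form on the intersection is a sum of restrictions -/
theorem split {p : Form D} (h0 : Form.IsDeg 0 p) (h1 : p.Supp O₁) (h2 : (1 - p).Supp O₂)
    {W : Set X} (i1 : W ⊆ O₁) (i2 : W ⊆ O₂) (hW : O₁ ∩ O₂ ⊆ W) {k : ℕ} {c : Form (D.on W)}
    (hc : Form.IsDeg k c) :
    ∃ (c₁ : Form (D.on O₁)) (c₂ : Form (D.on O₂)), Form.IsDeg k c₁ ∧ Form.IsDeg k c₂ ∧
      c = Form.pull id (Dif.map_on_mono i1) c₁ + Form.pull id (Dif.map_on_mono i2) c₂ := by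
  have m1 : ((D.on O₁).on O₂).Map (D.on W) id := fun h =>
    ⟨h.1.1, (h.1.2.and h.2).mono fun y hy => hW hy⟩
  have m2 : ((D.on O₂).on O₁).Map (D.on W) id := fun h =>
    ⟨h.1.1, (h.2.and h.1.2).mono fun y hy => hW hy⟩
  have s1 : (Form.res O₁ (1 - p)).Supp O₂ := h2.pull Dif.map_on
  have s2 : (Form.res O₂ p).Supp O₁ := h1.pull Dif.map_on
  refine ⟨Form.mx _ s1 (Form.pull id m1 c), Form.mx _ s2 (Form.pull id m2 c),
    Tube.isDeg_mx s1 ((Form.IsDeg.one.sub h0).pull _ _) (hc.pull _ _),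
    Tube.isDeg_mx s2 (h0.pull _ _) (hc.pull _ _), ?_⟩
  refine Form.ext_val fun E _ _ _ u x hu => ?_
  have a1 : (D.on O₁).At u x := Dif.map_on_mono i1 hu
  have a2 : (D.on O₂).At u x := Dif.map_on_mono i2 hu
  have a3 : ((D.on O₁).on O₂).At u x := ⟨a1, a2.2⟩
  have a4 : ((D.on O₂).on O₁).At u x := ⟨a2, a1.2⟩
  rw [Form.add_val, Form.pull_val _ _ hu, Form.pull_val _ _ hu]
  change _ = (Form.res O₁ (1 - p)).val u x * (Form.pull id m1 c).val u x +
    (Form.res O₂ p).val u x * (Form.pull id m2 c).val u x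
  rw [Form.res_val _ a1, Form.res_val _ a2, Form.pull_val _ _ a3, Form.pull_val _ _ a4,
    Form.sub_val, Form.one_val hu.1]
  change c.val u x = (1 - p.val u x) * c.val u x + p.val u x * c.val u x
  rw [sub_mul, one_mul, sub_add_cancel]

/-- degrees are local -/
theorem isDeg_cover {a : Form D} {k : ℕ}
    (hc : ∀ {E : Type} [NormedAddCommGroup E] [NormedSpace ℝ E] [FiniteDimensional ℝ E]
      {u : E → X} {x : E}, D.At u x → (D.on O₁).At u x ∨ (D.on O₂).At u x)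
    (h1 : Form.IsDeg k (Form.res O₁ a)) (h2 : Form.IsDeg k (Form.res O₂ a)) :
    Form.IsDeg k a := by
  refine Form.ext_cover hc ?_ ?_
  · rw [Form.res, ← Form.part_pull]
    exact h1
  · rw [Form.res, ← Form.part_pull]
    exact h2

/-- the partition function of two nonnegative functions -/
theorem exists_part {f g : X → ℝ} (hf : D.Map (Dif.lin ℝ) f) (hg : D.Map (Dif.lin ℝ) g)
    (f0 : ∀ x, 0 ≤ f x) (g0 : ∀ x, 0 ≤ g x) :
    ∃ p : Form (D.on {x | 0 < f x + g x}), Form.IsDeg 0 p ∧ p.Supp {x | 0 < f x} ∧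
      (1 - p).Supp {x | 0 < g x} := by
  have hq1 : (D.on {x | 0 < f x + g x}).Map (Dif.lin ℝ) (Form.quo f g) := Form.map_quo hf hg
  have hq : (D.on {x | 0 < f x + g x}).Map (Dif.lin ℝ) (fun x => Form.prf (Form.quo f g x)) :=
    Form.map_comp_quo hf hg Form.contDiff_prf
  have hk : ContDiff ℝ ∞ (fun t : ℝ => 1 - Form.prf t) := contDiff_const.sub Form.contDiff_prf
  have hq3 : (D.on {x | 0 < f x + g x}).Map (Dif.lin ℝ)
      (fun x => (fun t : ℝ => 1 - Form.prf t) (Form.quo f g x)) := Form.map_comp_quo hf hg hk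
  refine ⟨Form.fn (fun x => Form.prf (Form.quo f g x)) hq, Form.isDeg_fn _ _, ?_, ?_⟩
  · refine (Form.supp_fn_comp hq1 hq (isOpen_Ioi (a := (1 / 4 : ℝ))) fun t ht => ?_).mono
      fun x hx => ?_
    · have h1 : t ≤ 1 / 4 := not_lt.1 ht
      filter_upwards [Iio_mem_nhds (show t < 1 / 3 by linarith)] with s hs
      exact Form.prf_zero (le_of_lt hs)
    · by_contra h2
      have h3 : f x = 0 := le_antisymm (not_lt.1 h2) (f0 x)
      have h4 : (1 / 4 : ℝ) < Form.quo f g x := hx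
      rw [Form.quo, h3, zero_div] at h4
      linarith
  · have he : 1 - Form.fn (fun x => Form.prf (Form.quo f g x)) hq =
        Form.fn (fun x => (fun t : ℝ => 1 - Form.prf t) (Form.quo f g x)) hq3 :=
      Form.ext_val fun E _ _ _ u x hu => by
        rw [Form.sub_val, Form.one_val hu, Form.fn_val _ _ hu, Form.fn_val _ _ hu]
        simp only [map_sub, map_one]
    rw [he]
    have h5 := Form.supp_fn_comp (h := fun t : ℝ => 1 - Form.prf t) hq1 hq3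
      (isOpen_Iio (a := (3 / 4 : ℝ))) fun t ht => by
        have h1 : 3 / 4 ≤ t := not_lt.1 ht
        filter_upwards [Ioi_mem_nhds (show 2 / 3 < t by linarith)] with s hs
        rw [Form.prf_one (le_of_lt hs), sub_self]
    refine ⟨fun {E} _ _ _ {u x} hu => (h5.out hu).imp_left fun h6 => ?_⟩
    filter_upwards [h6, hu.2] with y h7 h8
    by_contra h2
    have h3 : g (u y) = 0 := le_antisymm (not_lt.1 h2) (g0 _)
    have h4 : Form.quo f g (u y) < 3 / 4 := h7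
    have h9 : 0 < f (u y) + g (u y) := h8
    rw [Form.quo, h3, add_zero, div_self (by rw [h3, add_zero] at h9; exact h9.ne')] at h4
    linarith

end Split

variable {B S Fr : Type*} {DB DB' : Dif B} {DS DS' : Dif S} {DF DF' : Dif Fr}
variable {F : Type} [NormedAddCommGroup F] [InnerProductSpace ℝ F] [FiniteDimensional ℝ F]
variable {π : S → B} {q : Fr → B} {ev : Fr × F → S}
variable [MeasurableSpace F] [BorelSpace F] {m : ℕ} (o : OrthonormalBasis (Fin m) ℝ F)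

theorem SI_id (h : Bun DB DS DF F π q ev) (h' : Bun DB' DS' DF' F π q ev) (hB : DB'.Map DB id)
    (hS : DS'.Map DS id) (hF : DF'.Map DF id) (w : Form DS) :
    h'.SI o (Form.pull id hS w) = Form.pull id hB (h.SI o w) :=
  h.SI_nat o h' hB hS hF (fun _ => EventuallyEq.rfl) (fun _ => EventuallyEq.rfl) w

theorem pull_id_π (h : Bun DB DS DF F π q ev) (h' : Bun DB' DS' DF' F π q ev)
    (hB : DB'.Map DB id) (hS : DS'.Map DS id) (a : Form DB) :
    Form.pull id hS (Form.pull π h.hπ a) = Form.pull π h'.hπ (Form.pull id hB a) :=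
  Form.pull2_eq (f := id) (g := π) (f' := π) (g' := id) _ _ _ _ (fun _ => rfl) a

/-- angular forms restrict -/
theorem ang_id (h : Bun DB DS DF F π q ev) (h' : Bun DB' DS' DF' F π q ev) (hB : DB'.Map DB id)
    (hS : DS'.Map DS id) (hF : DF'.Map DF id) {ψ : Form DS} {e : Form DB} (hψ : h.Ang o ψ e) :
    h'.Ang o (Form.pull id hS ψ) (Form.pull id hB e) where
  d := by rw [← Form.pull_d, hψ.d, pull_neg, pull_id_π h h' hB hS]
  one := by rw [SI_id o h h' hB hS hF, hψ.one, pull_one]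
  deg := hψ.deg.pull _ _
  dege := hψ.dege.pull _ _

/-- modification of an angular form -/
theorem ang_mod (h : Bun DB DS DF F π q ev) {j : ℕ} (hm : m = j + 2) {ψ : Form DS}
    {e : Form DB} (hψ : h.Ang o ψ e) {b : Form DB} (hb : Form.IsDeg (j + 1) b) {κ : Form DS}
    (hκ : Form.IsDeg j κ) : h.Ang o (ψ + Form.pull π h.hπ b + κ.d) (e - b.d) where
  d := by
    rw [Form.d_add, Form.d_add, Form.d_d, add_zero, hψ.d, ← Form.pull_d, pull_sub]
    abel
  one := by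
    rw [h.SI_add o, h.SI_add o, hψ.one, h.SI_pull_zero o (by omega), h.SI_d o,
      h.SI_eq_zero o hκ (by omega), Form.d_zero, smul_zero, add_zero, add_zero]
  deg := (hψ.deg.add (degc (hb.pull _ _) (by omega))).add (degc hκ.d (by omega))
  dege := hψ.dege.sub (degc hb.d (by omega))

/-- the Euler form is determined by the angular form -/
theorem ang_e (h : Bun DB DS DF F π q ev) (hm : 0 < m) {ψ : Form DS} {e e' : Form DB}
    (hψ : h.Ang o ψ e) (hψ' : h.Ang o ψ e') : e = e' :=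
  h.pull_π_inj o hm (neg_injective (hψ.d.symm.trans hψ'.d))

/-- comparison of two angular forms -/
theorem ang_cmp (h : Bun DB DS DF F π q ev) {j : ℕ} (hm : m = j + 2) {ψ ψ' : Form DS}
    {e e' : Form DB} (hψ : h.Ang o ψ e) (hψ' : h.Ang o ψ' e') :
    ∃ (b : Form DB) (κ : Form DS), Form.IsDeg (j + 1) b ∧ Form.IsDeg j κ ∧
      ψ = ψ' + Form.pull π h.hπ b + κ.d := by
  have hσ : Form.IsDeg (j + 1) (ψ - ψ') := degc (hψ.deg.sub hψ'.deg) (by omega)
  have h0 : h.SI o (ψ - ψ') = 0 := by rw [h.SI_sub o, hψ.one, hψ'.one, sub_self]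
  have hd : Form.pull π h.hπ (e' - e) = (ψ - ψ').d := by
    rw [Form.d_sub, hψ.d, hψ'.d, pull_sub]
    abel
  have he : Form.IsDeg (j + 1 + 1) (e' - e) := degc (hψ'.dege.sub hψ.dege) (by omega)
  have hg := h.gysin1 o hψ' hd
  rw [hσ.sg, h.SI_smul o, h0, smul_zero, zero_mul, zero_add, sgi_isDeg he] at hg
  obtain ⟨s, hs⟩ : ∃ s : ℝ, s = ((-1 : ℝ) ^ (j + 1 + 1)) ^ (m + 1) := ⟨_, rfl⟩
  have hss : s * s = 1 := by
    rw [hs, ← pow_mul, ← pow_add, ← two_mul, pow_mul, neg_one_sq, one_pow]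
  rw [← hs] at hg
  obtain ⟨c, hc⟩ : ∃ c : Form DB, c = Form.part (j + 1)
    ((s * (-1 : ℝ) ^ (m + 1)) • h.SI o ((ψ - ψ') * ψ')) := ⟨_, rfl⟩
  have hcj : Form.IsDeg (j + 1) c := hc ▸ Form.isDeg_part _ _
  have hcd : e' - e = c.d := by
    rw [hc, ← Form.part_succ_d, Form.d_smul, ← smul_smul, ← hg, smul_smul, hss, one_smul]
    exact he.part_eq.symm
  have h1 : (ψ - ψ' - Form.pull π h.hπ c).d = 0 := by
    rw [Form.d_sub, ← hd, hcd, Form.pull_d, sub_self]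
  have h2 : h.SI o (ψ - ψ' - Form.pull π h.hπ c) = 0 := by
    rw [h.SI_sub o, h0, h.SI_pull_zero o (by omega), sub_self]
  obtain ⟨a, κ, -, k2, k3, k4, -⟩ := h.gysin2 o hψ' (by omega) h1 h2 (hσ.sub (hcj.pull _ _))
  refine ⟨c + a, κ, hcj.add k2, k4 j rfl, ?_⟩
  rw [pull_add, ← add_assoc, add_assoc _ _ κ.d, ← k3]
  abel

/-- being an angular form is a local property -/
theorem ang_local (h : Bun DB DS DF F π q ev) {O₁ O₂ : Set B}
    (hc : ∀ {E : Type} [NormedAddCommGroup E] [NormedSpace ℝ E] [FiniteDimensional ℝ E]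
      {u : E → B} {x : E}, DB.At u x → (DB.on O₁).At u x ∨ (DB.on O₂).At u x)
    {ψ : Form DS} {e : Form DB}
    (h1 : (h.on O₁).Ang o (Form.res (π ⁻¹' O₁) ψ) (Form.res O₁ e))
    (h2 : (h.on O₂).Ang o (Form.res (π ⁻¹' O₂) ψ) (Form.res O₂ e)) : h.Ang o ψ e := by
  have hc' : ∀ {E : Type} [NormedAddCommGroup E] [NormedSpace ℝ E] [FiniteDimensional ℝ E]
      {u : E → S} {x : E}, DS.At u x →
        (DS.on (π ⁻¹' O₁)).At u x ∨ (DS.on (π ⁻¹' O₂)).At u x := fun hu =>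
    (hc (h.hπ hu)).imp (fun k => ⟨hu, k.2⟩) fun k => ⟨hu, k.2⟩
  have e1 : ∀ O : Set B, Form.res (π ⁻¹' O) (Form.pull π h.hπ e) =
      Form.pull π (h.on O).hπ (Form.res O e) := fun O =>
    pull_id_π h (h.on O) Dif.map_on Dif.map_on e
  have e2 : ∀ O : Set B, Form.res O (h.SI o ψ) = (h.on O).SI o (Form.res (π ⁻¹' O) ψ) :=
    fun O => (SI_id o h (h.on O) Dif.map_on Dif.map_on Dif.map_on ψ).symm
  refine ⟨Form.ext_cover hc' ?_ ?_, Form.ext_cover hc ?_ ?_, isDeg_cover hc' h1.deg h2.deg,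
    isDeg_cover hc h1.dege h2.dege⟩
  · rw [← Form.res_d, h1.d, Form.res_neg, e1]
  · rw [← Form.res_d, h2.d, Form.res_neg, e1]
  · rw [e2, h1.one, Form.res_one]
  · rw [e2, h2.one, Form.res_one]

/-- **gluing of two angular forms** -/
theorem ang_glue (h : Bun DB DS DF F π q ev) (hm : 1 < m) {O₁ O₂ : Set B} {p : Form DB}
    (h0 : Form.IsDeg 0 p) (s1 : p.Supp O₁) (s2 : (1 - p).Supp O₂)
    (h1 : ∃ ψ e, (h.on O₁).Ang o ψ e) (h2 : ∃ ψ e, (h.on O₂).Ang o ψ e) :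
    ∃ ψ e, h.Ang o ψ e := by
  obtain ⟨j, hj⟩ : ∃ j, m = j + 2 := ⟨m - 2, by omega⟩
  obtain ⟨ψ₁, e₁, h1⟩ := h1
  obtain ⟨ψ₂, e₂, h2⟩ := h2
  have i1 : O₁ ∩ O₂ ⊆ O₁ := inter_subset_left
  have i2 : O₁ ∩ O₂ ⊆ O₂ := inter_subset_right
  have j1 : π ⁻¹' O₁ ∩ π ⁻¹' O₂ ⊆ π ⁻¹' O₁ := inter_subset_left
  have j2 : π ⁻¹' O₁ ∩ π ⁻¹' O₂ ⊆ π ⁻¹' O₂ := inter_subset_right
  have l1 : q ⁻¹' (O₁ ∩ O₂) ⊆ q ⁻¹' O₁ := preimage_mono i1
  have l2 : q ⁻¹' (O₁ ∩ O₂) ⊆ q ⁻¹' O₂ := preimage_mono i2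
  have hW : Bun (DB.on (O₁ ∩ O₂)) (DS.on (π ⁻¹' O₁ ∩ π ⁻¹' O₂)) (DF.on (q ⁻¹' (O₁ ∩ O₂))) F
      π q ev := h.on (O₁ ∩ O₂)
  have r1 : ∀ {ψ e}, (h.on O₁).Ang o ψ e → hW.Ang o (Form.pull id (Dif.map_on_mono j1) ψ)
      (Form.pull id (Dif.map_on_mono i1) e) := fun k =>
    ang_id o (h.on O₁) hW _ _ (Dif.map_on_mono l1) k
  have r2 : ∀ {ψ e}, (h.on O₂).Ang o ψ e → hW.Ang o (Form.pull id (Dif.map_on_mono j2) ψ)
      (Form.pull id (Dif.map_on_mono i2) e) := fun k =>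
    ang_id o (h.on O₂) hW _ _ (Dif.map_on_mono l2) k
  obtain ⟨b, κ, hb, hκ, he⟩ := ang_cmp o hW hj (r1 h1) (r2 h2)
  obtain ⟨b₁, b₂, hb₁, hb₂, hbb⟩ := split h0 s1 s2 i1 i2 Subset.rfl hb
  have S1 : (Form.pull π h.hπ p).Supp (π ⁻¹' O₁) := s1.pull h.hπ
  have S2 : (1 - Form.pull π h.hπ p).Supp (π ⁻¹' O₂) := by
    have h3 := s2.pull h.hπ
    rwa [pull_sub, pull_one] at h3
  obtain ⟨κ₁, κ₂, hκ₁, hκ₂, hκκ⟩ := split (h0.pull π h.hπ) S1 S2 j1 j2 Subset.rfl hκ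
  have a1 := ang_mod o (h.on O₁) hj h1 hb₁.neg hκ₁.neg
  have a2 := ang_mod o (h.on O₂) hj h2 hb₂ hκ₂
  have eψ : Form.pull id (Dif.map_on_mono j1)
      (ψ₁ + Form.pull π (h.on O₁).hπ (-b₁) + (-κ₁).d) = Form.pull id (Dif.map_on_mono j2)
      (ψ₂ + Form.pull π (h.on O₂).hπ b₂ + κ₂.d) := by
    rw [pull_add, pull_add, pull_add, pull_add, he,
      pull_id_π (h.on O₁) hW (Dif.map_on_mono i1) (Dif.map_on_mono j1),
      pull_id_π (h.on O₂) hW (Dif.map_on_mono i2) (Dif.map_on_mono j2), hbb, hκκ,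
      Form.pull_d, Form.pull_d, pull_neg, pull_neg, pull_neg, pull_add, Form.d_add, Form.d_neg]
    abel
  have ee : Form.pull id (Dif.map_on_mono i1) (e₁ - (-b₁).d) =
      Form.pull id (Dif.map_on_mono i2) (e₂ - b₂.d) := by
    have k1 := r1 a1
    rw [eψ] at k1
    exact ang_e o hW (by omega) k1 (r2 a2)
  refine ⟨Form.glue _ _ eψ (cover_of S1 S2), Form.glue _ _ ee (cover_of s1 s2),
    ang_local o h (cover_of s1 s2) ?_ ?_⟩
  · rw [Form.res_glue_left, Form.res_glue_left]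
    exact a1
  · rw [Form.res_glue_right, Form.res_glue_right]
    exact a2

theorem ang_on_on (h : Bun DB DS DF F π q ev) {O W : Set B}
    (h1 : ∃ ψ e, (h.on O).Ang o ψ e) : ∃ ψ e, ((h.on W).on O).Ang o ψ e := by
  obtain ⟨ψ, e, h1⟩ := h1
  exact ⟨_, _, ang_id o (h.on O) ((h.on W).on O) (fun k => ⟨k.1.1, k.2⟩) (fun k => ⟨k.1.1, k.2⟩)
    (fun k => ⟨k.1.1, k.2⟩) h1⟩

theorem ang_empty (h : Bun DB DS DF F π q ev) : ∃ ψ e, (h.on ∅).Ang o ψ e := by
  have e1 : ∀ a b : Form (DB.on ∅), a = b := fun a b =>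
    Form.ext_val fun E _ _ _ u x hu => absurd hu.2.self_of_nhds (notMem_empty _)
  have e2 : ∀ a b : Form (DS.on (π ⁻¹' ∅)), a = b := fun a b =>
    Form.ext_val fun E _ _ _ u x hu => absurd hu.2.self_of_nhds (notMem_empty _)
  exact ⟨0, 0, e2 _ _, e1 _ _, e2 _ _, e1 _ _⟩

theorem map_sum {ι : Type*} {f : ι → B → ℝ} (t : Finset ι)
    (hf : ∀ i ∈ t, DB.Map (Dif.lin ℝ) (f i)) :
    DB.Map (Dif.lin ℝ) (fun x => ∑ i ∈ t, f i x) := by
  intro E _ _ _ u x hu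
  have h4 : Sm (fun y => ∑ i ∈ t, f i (u y)) x := by
    have h5 : ∀ i ∈ t, ∀ᶠ y in 𝓝 x, ContDiffAt ℝ ∞ (fun y => f i (u y)) y := fun i hi =>
      hf i hi hu
    filter_upwards [(Filter.eventually_all_finset t).2 h5] with y hy
    exact ContDiffAt.sum hy
  exact h4

open Classical in
theorem ang_sum (h : Bun DB DS DF F π q ev) (hm : 1 < m) {ι : Type*} {f : ι → B → ℝ}
    (hf : ∀ i, DB.Map (Dif.lin ℝ) (f i)) (f0 : ∀ i x, 0 ≤ f i x)
    (hl : ∀ i, ∃ ψ e, (h.on {x | 0 < f i x}).Ang o ψ e) (t : Finset ι) :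
    ∃ ψ e, (h.on {x | 0 < ∑ i ∈ t, f i x}).Ang o ψ e := by
  induction t using Finset.induction_on with
  | empty =>
    have h1 : {x : B | 0 < ∑ i ∈ (∅ : Finset ι), f i x} = ∅ := by
      ext x
      simp
    rw [h1]
    exact ang_empty o h
  | insert a t ha ih =>
    have h1 : {x : B | 0 < ∑ i ∈ insert a t, f i x} = {x | 0 < f a x + ∑ i ∈ t, f i x} := by
      ext x
      simp only [Finset.sum_insert ha]
    rw [h1]
    obtain ⟨p, p0, p1, p2⟩ := exists_part (g := fun x => ∑ i ∈ t, f i x) (hf a)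
      (map_sum t fun i _ => hf i) (f0 a) (fun x => Finset.sum_nonneg fun i _ => f0 i x)
    exact ang_glue o (h.on _) hm p0 p1 p2 (ang_on_on o h (hl a)) (ang_on_on o h ih)

/-- **local to global** -/
theorem ang_cover (h : Bun DB DS DF F π q ev) (hm : 1 < m) {ι : Type*} {f : ι → B → ℝ}
    (hf : ∀ i, DB.Map (Dif.lin ℝ) (f i)) (f0 : ∀ i x, 0 ≤ f i x)
    (hl : ∀ i, ∃ ψ e, (h.on {x | 0 < f i x}).Ang o ψ e) (t : Finset ι)
    (ht : ∀ x, ∃ i ∈ t, 0 < f i x) : ∃ ψ e, h.Ang o ψ e := by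
  obtain ⟨ψ, e, h1⟩ := ang_sum o h hm hf f0 hl t
  have h2 : ∀ x, 0 < ∑ i ∈ t, f i x := fun x => by
    obtain ⟨i, hi, h1⟩ := ht x
    exact Finset.sum_pos' (fun i _ => f0 i x) ⟨i, hi, h1⟩
  exact ⟨_, _, ang_id o (h.on {x | 0 < ∑ i ∈ t, f i x}) h
    (fun k => ⟨k, Eventually.of_forall fun y => h2 _⟩)
    (fun k => ⟨k, Eventually.of_forall fun y => h2 (π _)⟩)
    (fun k => ⟨k, Eventually.of_forall fun y => h2 (q _)⟩) h1⟩

end Vale.Agent.P231Z.Ang
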