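import Vale.Agent.P231Z.Ang.Glue
import Vale.Agent.P231.CoZ.Sol

/-! P231, angular forms (2): bundles with a frame, charts, the abstract existence theorem. -/

set_option linter.unusedSectionVars false
set_option linter.unusedVariables false

open MeasureTheory Set Module Filter Topology
open scoped ContDiff

namespace Vale.Agent.P231Z.Ang

open Vale.Agent.P231 Vale.Agent.P231.Fm Vale.Agent.P231.Co
open Vale.Agent.P231.Fm (Sm Dif Form Lam)
open Vale.Agent.P231.S2I (dP dPt Pt sint)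

variable {B S Fr : Type*} {DB : Dif B} {DS : Dif S} {DF : Dif Fr}
variable {F : Type} [NormedAddCommGroup F] [InnerProductSpace ℝ F] [FiniteDimensional ℝ F]
variable {π : S → B} {q : Fr → B} {ev : Fr × F → S}

open Classical in
/-- the coordinates of a point of the bundle in the frame `σ` -/
noncomputable def crd (π : S → B) (ev : Fr × F → S) (σ : B → Fr) (z : S) : F :=
  if h : ∃ ξ : F, ‖ξ‖ = 1 ∧ ev (σ (π z), ξ) = z then h.choose else 0

theorem crd_eq (h : Bun DB DS DF F π q ev) {σ : B → Fr} {E : Type} [NormedAddCommGroup E]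
    [NormedSpace ℝ E] [FiniteDimensional ℝ E] {f : E → Fr} {x : E} (hf : DF.At f x) {z : S}
    (hz : σ (π z) = f x) {ξ : F} (h1 : ‖ξ‖ = 1) (h2 : ev (f x, ξ) = z) : crd π ev σ z = ξ := by
  have h3 : ∃ ξ : F, ‖ξ‖ = 1 ∧ ev (σ (π z), ξ) = z := ⟨ξ, h1, hz ▸ h2⟩
  rw [crd, dif_pos h3]
  refine h.inj hf _ _ h3.choose_spec.1 h1 ?_
  rw [h2, ← hz]
  exact h3.choose_spec.2

theorem map_crd (h : Bun DB DS DF F π q ev) {σ : B → Fr} (hσ : DB.Map DF σ)
    (hq : ∀ {E : Type} [NormedAddCommGroup E] [NormedSpace ℝ E] [FiniteDimensional ℝ E]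
      {u : E → B} {x : E}, DB.At u x → q (σ (u x)) = u x) :
    DS.Map (dP F) (crd π ev σ) := by
  intro E _ _ _ u x hu
  have h1 : DB.At (π ∘ u) x := h.hπ hu
  have h2 : DF.At (σ ∘ (π ∘ u)) x := hσ h1
  obtain ⟨ξ, k1, k2⟩ := h.lift hu h2 ((DB.open' h1).mono fun y hy => hq hy)
  have e : ξ =ᶠ[𝓝 x] crd π ev σ ∘ u := by
    filter_upwards [k2, DF.open' h2] with y k3 k4
    exact (crd_eq h k4 rfl k3.1 k3.2).symm
  refine ⟨Sm.congr k1 e, ?_⟩
  filter_upwards [k2, e] with y k3 k4 k5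
  have k6 : (crd π ev σ ∘ u) y = 0 := k5
  have k7 := k3.1
  rw [k4, k6, norm_zero] at k7
  exact zero_ne_one k7

variable [MeasurableSpace F] [BorelSpace F] {m : ℕ} (o : OrthonormalBasis (Fin m) ℝ F)

/-- a sphere bundle with a global frame has a closed angular form -/
theorem ang_frame (h : Bun DB DS DF F π q ev) (hm : 1 < m) {σ : B → Fr} (hσ : DB.Map DF σ)
    (hq : ∀ {E : Type} [NormedAddCommGroup E] [NormedSpace ℝ E] [FiniteDimensional ℝ E]
      {u : E → B} {x : E}, DB.At u x → q (σ (u x)) = u x) : ∃ ψ, h.Ang o ψ 0 := by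
  obtain ⟨w₀, w1, w2, w3⟩ := CoZ.exists_solid o hm
  obtain ⟨w, hw⟩ : ∃ w : Form (dP F), w = Form.pull rad S2I.map_rad' w₀ := ⟨_, rfl⟩
  rw [← hw] at w3
  have hwd : w.d = 0 := by rw [hw, ← Form.pull_d, w1, pull_zero]
  have hwk : Form.IsDeg (m - 1) w := hw ▸ w2.pull _ _
  have hc : si o (Form.pull Prod.snd S2I.map_i w : Form (SB dPt F)) =
      sint o w • (1 : Form dPt) :=
    S2I.pt_zero (isDeg_si o (hwk.pull Prod.snd S2I.map_i) (k := 0) (by omega))
  have hp : DB.Map dPt (fun _ => 0) := fun hu => S2I.pt_at _ _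
  have hξ : DS.Map (dP F) (crd π ev σ) := map_crd h hσ hq
  have e1 : ∀ a : Form DB, Form.pull σ hσ (Form.pull q h.hq.map a) = a := fun a =>
    Form.ext_val fun E _ _ _ u x hu => by
      rw [Form.pull_val _ _ hu, Form.pull_val _ _ (hσ hu)]
      exact (a.congr hu ((DB.open' hu).mono fun y hy => (hq hy).symm)).symm
  have e2 : Form.pull (fun p : B × F => (σ p.1, p.2)) (map_SB hσ)
      (Form.pull ev h.hev (Form.pull _ hξ w)) =
      Form.pull (fun p : B × F => ((fun _ => (0 : Pt)) p.1, p.2)) (map_SB hp)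
        (Form.pull Prod.snd S2I.map_i w : Form (SB dPt F)) :=
    Form.ext_val fun E _ _ _ u x hu => by
      have a1 := map_SB hσ hu
      rw [Form.pull_val _ _ hu, Form.pull_val _ _ a1, Form.pull_val _ _ (h.hev a1),
        Form.pull_val _ _ hu, Form.pull_val _ _ (map_SB hp hu)]
      refine w.congr (hξ (h.hev a1)) ?_
      filter_upwards [h.comm' a1, DB.open' hu.1.1, hu.2] with y k1 k2 k3
      have k4 : π (ev (σ (u y).1, (u y).2)) = (u y).1 := k1.trans (hq k2)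
      exact crd_eq h (hσ k2) (congrArg σ k4) k3 rfl
  have e3 : h.SI o (Form.pull _ hξ w) = sint o w • 1 := by
    rw [← e1 (h.SI o _), h.pull_SI o, ← si_nat o hσ, e2, si_nat o hp, hc, pull_smul, pull_one]
  refine ⟨(sint o w)⁻¹ • Form.pull _ hξ w, ?_, ?_, (hwk.pull _ _).smul _, Form.IsDeg.zero _⟩
  · rw [Form.d_smul, ← Form.pull_d, hwd, pull_zero, pull_zero, smul_zero, neg_zero]
  · rw [h.SI_smul o, e3, smul_smul, inv_mul_cancel₀ w3, one_smul]

/-- a plot with a smooth section near `b₀` -/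
def Ch (D : Dif B) (b₀ : B) : Prop :=
  ∃ (V : Type) (_ : NormedAddCommGroup V) (_ : NormedSpace ℝ V) (_ : FiniteDimensional ℝ V)
    (c : V → B) (s : B → V) (g : B → ℝ), D.At c (s b₀) ∧ D.Map (Dif.lin ℝ) g ∧ 0 < g b₀ ∧
      (D.on {x | 0 < g x}).Map (Dif.lin V) s ∧ ∀ x, 0 < g x → c (s x) = x

/-- compactness with respect to smooth functions -/
def Cpt (D : Dif B) : Prop :=
  ∀ f : B → B → ℝ, (∀ b, D.Map (Dif.lin ℝ) (f b)) → (∀ b, 0 < f b b) →
    ∃ t : Finset B, ∀ x, ∃ i ∈ t, 0 < f i x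

/-- a smooth function defined where `g` is positive can be cut off -/
theorem exists_cut {g k : B → ℝ} (hg : DB.Map (Dif.lin ℝ) g)
    (hk : (DB.on {x | 0 < g x}).Map (Dif.lin ℝ) k) (k0 : ∀ x, 0 ≤ k x) {b₀ : B}
    (h1 : 0 < g b₀) (h2 : 0 < k b₀) :
    ∃ f : B → ℝ, DB.Map (Dif.lin ℝ) f ∧ (∀ x, 0 ≤ f x) ∧ 0 < f b₀ ∧
      ∀ x, 0 < f x → 0 < g x ∧ 0 < k x := by
  refine ⟨fun x => Real.smoothTransition (2 * g x / g b₀ - 1) * k x, ?_,
    fun x => mul_nonneg (Real.smoothTransition.nonneg _) (k0 x), ?_, fun x hx => ?_⟩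
  · intro E _ _ _ u x hu
    have a1 : Sm (g ∘ u) x := hg hu
    have a2 : Sm (fun y => Real.smoothTransition (2 * g (u y) / g b₀ - 1) * k (u y)) x := by
      by_cases h3 : 0 < g (u x)
      · have a3 : Sm (k ∘ u) x := hk ⟨hu, a1.continuousAt.eventually (lt_mem_nhds h3)⟩
        filter_upwards [a1, a3] with y a4 a5
        exact (Real.smoothTransition.contDiff.contDiffAt.comp y
          (((contDiffAt_const.mul a4).div_const _).sub contDiffAt_const)).mul a5
      · have a3 : (g ∘ u) x < g b₀ / 2 := (not_lt.1 h3).trans_lt (by linarith)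
        refine Sm.congr (Sm.of_contDiff (contDiff_const (c := (0 : ℝ))) x) ?_
        filter_upwards [a1.continuousAt.eventually (gt_mem_nhds a3)] with y hy
        have a4 : g (u y) < g b₀ / 2 := hy
        rw [Real.smoothTransition.zero_of_nonpos, zero_mul]
        rw [sub_nonpos, div_le_one h1]
        linarith
    exact a2
  · change 0 < Real.smoothTransition (2 * g b₀ / g b₀ - 1) * k b₀
    rw [mul_div_assoc, div_self h1.ne', Real.smoothTransition.one_of_one_le (by norm_num), one_mul]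
    exact h2
  · have a1 : 0 < Real.smoothTransition (2 * g x / g b₀ - 1) * k x := hx
    refine ⟨?_, ?_⟩
    · by_contra h3
      rw [Real.smoothTransition.zero_of_nonpos, zero_mul] at a1
      · exact lt_irrefl _ a1
      · rw [sub_nonpos, div_le_one h1]
        linarith [not_lt.1 h3]
    · by_contra h3
      rw [le_antisymm (not_lt.1 h3) (k0 x), mul_zero] at a1
      exact lt_irrefl _ a1

/-- local sections of a quotient map -/
theorem Ch.exists_sec {b₀ : B} (h : Ch DB b₀) (hq : IsQuo DF DB q) :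
    ∃ (f : B → ℝ) (σ : B → Fr), DB.Map (Dif.lin ℝ) f ∧ (∀ x, 0 ≤ f x) ∧ 0 < f b₀ ∧
      (DB.on {x | 0 < f x}).Map DF σ ∧ ∀ x, 0 < f x → q (σ x) = x := by
  obtain ⟨V, _, _, _, c, s, g, h1, h2, h3, h4, h5⟩ := h
  obtain ⟨v, k1, k2⟩ := hq.lift h1
  have k3 : {y | DF.At v y ∧ q (v y) = c y} ∈ 𝓝 (s b₀) := (DF.open' k1).and k2
  obtain ⟨β, b1, -, b2, b3, b4⟩ := exists_contDiff_tsupport_subset (n := ⊤) k3
  obtain ⟨f, f1, f2, f3, f4⟩ := exists_cut (k := fun x => β (s x)) h2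
    (fun hu => Dif.map_lin b2 (h4 hu)) (fun x => (b3 (mem_range_self _)).1) h3
    (by rw [b4]; exact one_pos)
  have k4 : ∀ x, 0 < f x → DF.At v (s x) ∧ q (v (s x)) = c (s x) := fun x hx =>
    b1 (subset_tsupport _ (f4 x hx).2.ne')
  refine ⟨f, v ∘ s, f1, f2, f3, fun {E} _ _ _ {u x} hu => ?_,
    fun x hx => (k4 x hx).2.trans (h5 x (f4 x hx).1)⟩
  exact DF.comp (u := v) (g := s ∘ u) (k4 _ hu.2.self_of_nhds).1
    (h4 ⟨hu.1, hu.2.mono fun y hy => (f4 _ hy).1⟩)

/-- **angular forms exist** over a compact base with charts -/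
theorem exists_ang (h : Bun DB DS DF F π q ev) (hm : 1 < m) (hc : ∀ b, Ch DB b) (hk : Cpt DB) :
    ∃ ψ e, h.Ang o ψ e := by
  choose f σ f1 f2 f3 f4 f5 using fun b => (hc b).exists_sec h.hq
  obtain ⟨t, ht⟩ := hk f f1 f3
  refine ang_cover o h hm f1 f2 (fun b => ?_) t ht
  obtain ⟨ψ, hψ⟩ := ang_frame o (h.on {x | 0 < f b x}) hm (σ := σ b)
    (fun {E} _ _ _ {u x} hu => ⟨f4 b hu, hu.2.mono fun y hy => by
      change 0 < f b (q (σ b (u y)))
      rw [f5 b _ hy]
      exact hy⟩) (fun hu => f5 b _ hu.2.self_of_nhds)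
  exact ⟨ψ, 0, hψ⟩

end Vale.Agent.P231Z.Ang
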