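import Vale.Agent.P231Z.Ang.Loc
import Vale.Agent.P231.Co.RelM
import Vale.Agent.P231.WF.Top

/-! P231, angular forms (3): sphere bundles over `M` and over its unit tangent bundle. -/

set_option maxSynthPendingDepth 3
set_option linter.unusedSectionVars false
set_option linter.unusedVariables false

open Bundle Manifold Set Filter Module
open scoped ContDiff Manifold Topology

namespace Vale.Agent.P231Z.Ang

open Vale.Agent.P234 Vale.Agent.P231 Vale.Agent.P231.Fm Vale.Agent.P231.W Vale.Agent.P231.H775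
open Vale.Agent.P231.CoU

theorem cpt_of {X : Type*} [TopologicalSpace X] [CompactSpace X] {D : Dif X}
    (h : ∀ f : X → ℝ, D.Map (Dif.lin ℝ) f → Continuous f) : Cpt D := fun f hf h0 => by
  obtain ⟨t, ht⟩ := isCompact_univ.elim_finite_subcover (fun b => {x | 0 < f b x})
    (fun b => isOpen_lt continuous_const (h _ (hf b))) (fun x _ => mem_iUnion.2 ⟨x, h0 x⟩)
  refine ⟨t, fun x => ?_⟩
  obtain ⟨i, hi⟩ := mem_iUnion.1 (ht (mem_univ x))
  obtain ⟨hi1, hi2⟩ := mem_iUnion.1 hi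
  exact ⟨i, hi1, hi2⟩

/-- smooth functions on a space with charts are continuous -/
theorem cont_of_ch {X : Type*} [TopologicalSpace X] {D : Dif X} (h : WF.LocSec D) (f : X → ℝ)
    (hf : D.Map (Dif.lin ℝ) f) : Continuous f := h.continuous (WF.plotsCont_lin ℝ) hf

variable {E : Type*} [NormedAddCommGroup E] [NormedSpace ℝ E] [FiniteDimensional ℝ E]
  {M : Type*} [MetricSpace M] [ChartedSpace E M] [IsManifold 𝓘(ℝ, E) ∞ M]
  [RiemannianBundle (fun x : M => TangentSpace 𝓘(ℝ, E) x)]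
  [IsContMDiffRiemannianBundle 𝓘(ℝ, E) ∞ E (fun x : M => TangentSpace 𝓘(ℝ, E) x)]
  [CompactSpace M] [ConnectedSpace M] [IsRiemannianManifold 𝓘(ℝ, E) M]

/-- the inverse of the chart -/
noncomputable def cM (x₀ : M) (a : Eu E) : M :=
  (extChartAt 𝓘(ℝ, E) x₀).symm (fr (E := E) x₀ a)

/-- the chart -/
noncomputable def sM (E : Type*) [NormedAddCommGroup E] [NormedSpace ℝ E] [FiniteDimensional ℝ E]
    {M : Type*} [MetricSpace M] [ChartedSpace E M]
    [RiemannianBundle (fun x : M => TangentSpace 𝓘(ℝ, E) x)] (x₀ x : M) : Eu E :=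
  (fr (E := E) x₀).symm (extChartAt 𝓘(ℝ, E) x₀ x)

theorem cM_sM {x₀ x : M} (hx : x ∈ dom (E := E) x₀) : cM x₀ (sM E x₀ x) = x := by
  rw [cM, sM, ContinuousLinearEquiv.apply_symm_apply]
  exact (extChartAt 𝓘(ℝ, E) x₀).left_inv hx

theorem at_cM {x₀ x : M} (hx : x ∈ dom (E := E) x₀) :
    ((dM E M).on (dom (E := E) x₀)).At (cM x₀) (sM E x₀ x) := by
  have h1 : fr (E := E) x₀ (sM E x₀ x) ∈ (extChartAt 𝓘(ℝ, E) x₀).target := by
    rw [sM, ContinuousLinearEquiv.apply_symm_apply]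
    exact (extChartAt 𝓘(ℝ, E) x₀).map_source hx
  have h2 : ∀ᶠ a in 𝓝 (sM E x₀ x), fr (E := E) x₀ a ∈ (extChartAt 𝓘(ℝ, E) x₀).target :=
    (fr (E := E) x₀).continuous.continuousAt.eventually
      ((isOpen_extChartAt_target x₀).mem_nhds h1)
  refine ⟨?_, h2.mono fun a ha => (extChartAt 𝓘(ℝ, E) x₀).map_target ha⟩
  have h3 : ∀ᶠ a in 𝓝 (sM E x₀ x), ContMDiffAt 𝓘(ℝ, Eu E) 𝓘(ℝ, E) ∞ (cM x₀) a := by
    filter_upwards [h2] with a ha
    have h4 : ContMDiffAt 𝓘(ℝ, E) 𝓘(ℝ, E) ∞ (extChartAt 𝓘(ℝ, E) x₀).symm (fr (E := E) x₀ a) :=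
      (contMDiffOn_extChartAt_symm x₀).contMDiffAt ((isOpen_extChartAt_target x₀).mem_nhds ha)
    exact h4.comp a (fr (E := E) x₀).contDiff.contDiffAt.contMDiffAt
  exact h3

theorem map_sM (x₀ : M) :
    ((dM E M).on (dom (E := E) x₀)).Map (Dif.lin (Eu E)) (sM E x₀) := by
  intro V _ _ _ u x hu
  have h1 : ∀ᶠ y in 𝓝 x, ContMDiffAt 𝓘(ℝ, V) 𝓘(ℝ, E) ∞ u y := hu.1
  have h2 : Sm (sM E x₀ ∘ u) x := by
    filter_upwards [h1, hu.2] with y k1 k2
    have k3 : ContMDiffAt 𝓘(ℝ, V) 𝓘(ℝ, E) ∞ (fun s => extChartAt 𝓘(ℝ, E) x₀ (u s)) y :=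
      (contMDiffAt_extChartAt' (exm_mem_source k2)).comp y k1
    exact (fr (E := E) x₀).symm.contDiff.contDiffAt.comp y k3.contDiffAt
  exact h2

theorem exists_gM (x₀ : M) : ∃ g : M → ℝ, (dM E M).Map (Dif.lin ℝ) g ∧
    ∀ x, 0 < g x ↔ x ∈ dom (E := E) x₀ := by
  obtain ⟨g, h1, h2, h3⟩ := (isOpen_extChartAt_source (I := 𝓘(ℝ, E))
    x₀).exists_contMDiff_support_eq (n := ⊤) 𝓘(ℝ, E)
  refine ⟨g, fun hu => Dif.map_mfd_lin h2 hu, fun x => ?_⟩
  rw [dom, ← h1, Function.mem_support]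
  exact ⟨fun h => h.ne', fun h => lt_of_le_of_ne (h3 x) (Ne.symm h)⟩

theorem ch_M (x₀ : M) : Ch (dM E M) x₀ := by
  obtain ⟨g, h1, h2⟩ := exists_gM (E := E) x₀
  have h0 : x₀ ∈ dom (E := E) x₀ := mem_extChartAt_source x₀
  exact ⟨Eu E, inferInstance, inferInstance, inferInstance, cM x₀, sM E x₀, g, (at_cM h0).1, h1,
    (h2 _).2 h0, fun hu => map_sM x₀ ⟨hu.1, hu.2.mono fun y hy => (h2 _).1 hy⟩,
    fun x hx => cM_sM ((h2 _).1 hx)⟩

theorem locSec_M : WF.LocSec (dM E M) := fun x₀ => by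
  have h0 : x₀ ∈ dom (E := E) x₀ := mem_extChartAt_source x₀
  refine ⟨Eu E, inferInstance, inferInstance, inferInstance, cM x₀, sM E x₀, (at_cM h0).1,
    (fr (E := E) x₀).symm.continuous.continuousAt.comp (continuousAt_extChartAt x₀), ?_⟩
  filter_upwards [(isOpen_extChartAt_source (I := 𝓘(ℝ, E)) x₀).mem_nhds h0] with x hx
  exact cM_sM hx

theorem cpt_M : Cpt (dM E M) := cpt_of (cont_of_ch locSec_M)

theorem cpt_UT : Cpt (dUT E M) := by
  let _ := WF.topUT E M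
  have : CompactSpace (UT E M) := WF.compactSpace_UT
  exact cpt_of (cont_of_ch WF.locSec_dUT)

theorem norm_Psi {x₀ : M} {v : UT E M} (hx : foot v ∈ dom (E := E) x₀) :
    ‖(Psi x₀ v).2‖ = 1 := by
  change ‖‖cr x₀ v‖⁻¹ • cr x₀ v‖ = 1
  rw [norm_smul, norm_inv, norm_norm, inv_mul_cancel₀ (norm_ne_zero_iff.2 (cr_ne_zero hx))]

theorem ch_UT (v₀ : UT E M) : Ch (dUT E M) v₀ := by
  obtain ⟨g, h1, h2⟩ := exists_gM (E := E) (foot v₀)
  have h0 : foot v₀ ∈ dom (E := E) (foot v₀) := mem_extChartAt_source _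
  refine ⟨Eu E × Eu E, inferInstance, inferInstance, inferInstance,
    fun p => Phi (foot v₀) v₀ (cM (foot v₀) p.1, ‖p.2‖⁻¹ • p.2),
    fun v => (sM E (foot v₀) (foot v), (Psi (foot v₀) v).2), g ∘ foot, ?_,
    fun hu => h1 (map_foot hu), (h2 _).2 h0, fun {V} _ _ _ {u x} hu => ?_, fun v hv => ?_⟩
  · have k0 : (Psi (foot v₀) v₀).2 ≠ 0 := by
      rw [← norm_ne_zero_iff, norm_Psi h0]
      exact one_ne_zero
    have k1 : (Co.PB ((dM E M).on (dom (E := E) (foot v₀))) (Eu E)).At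
        (fun p : Eu E × Eu E => (cM (foot v₀) p.1, p.2))
        (sM E (foot v₀) (foot v₀), (Psi (foot v₀) v₀).2) :=
      ⟨⟨Dif.comp _ (u := cM (foot v₀)) (g := Prod.fst) (at_cM h0) (Sm.of_contDiff contDiff_fst _),
        Sm.of_contDiff contDiff_snd _⟩, continuous_snd.continuousAt.eventually_ne k0⟩
    exact (map_Phi (v₀ := v₀) Subset.rfl (Co.map_nrm k1)).1
  · have k1 := map_Psi (x₀ := foot v₀) Subset.rfl (u := u) (x := x)
      ⟨hu.1, hu.2.mono fun y hy => (h2 _).1 hy⟩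
    exact Sm.prodMk (map_sM (foot v₀) k1.1.1) k1.1.2
  · have k1 : foot v ∈ dom (E := E) (foot v₀) := (h2 _).1 hv
    change Phi (foot v₀) v₀ (cM (foot v₀) (sM E (foot v₀) (foot v)),
      ‖(Psi (foot v₀) v).2‖⁻¹ • (Psi (foot v₀) v).2) = v
    rw [cM_sM k1, norm_Psi k1, inv_one, one_smul]
    exact Phi_Psi k1

variable {S Fr : Type*} {DS : Dif S} {DF : Dif Fr}
  {F : Type} [NormedAddCommGroup F] [InnerProductSpace ℝ F] [FiniteDimensional ℝ F]
  [MeasurableSpace F] [BorelSpace F] {m : ℕ}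

/-- **every sphere bundle over `M` has an angular form** -/
theorem exists_ang_M {ϖ : S → M} {q : Fr → M} {ev : Fr × F → S}
    (h : Co.Bun (dM E M) DS DF F ϖ q ev) (o : OrthonormalBasis (Fin m) ℝ F) (hm : 1 < m) :
    ∃ ψ e, h.Ang o ψ e := exists_ang o h hm ch_M cpt_M

/-- **every sphere bundle over the unit tangent bundle has an angular form** -/
theorem exists_ang_UT {ϖ : S → UT E M} {q : Fr → UT E M} {ev : Fr × F → S}
    (h : Co.Bun (dUT E M) DS DF F ϖ q ev) (o : OrthonormalBasis (Fin m) ℝ F) (hm : 1 < m) :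
    ∃ ψ e, h.Ang o ψ e := exists_ang o h hm ch_UT cpt_UT

end Vale.Agent.P231Z.Ang
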